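import Crest.Agent.Lib.CStarPure.State

/-! Irreducible representations: Schur's lemma, a Kaplansky/Kadison-type lifting lemma. -/

set_option autoImplicit false

open scoped ComplexOrder InnerProductSpace
open Filter Topology

namespace Crest.Agent.Lib.CStarPure

variable {A : Type*} [CStarAlgebra A]
variable {H : Type*} [NormedAddCommGroup H] [InnerProductSpace ℂ H] [CompleteSpace H]

/-- No nontrivial closed invariant subspace. -/
def Irred (π : A →⋆ₐ[ℂ] (H →L[ℂ] H)) : Prop :=
  ∀ V : Submodule ℂ H, IsClosed (V : Set H) → (∀ a, ∀ v ∈ V, π a v ∈ V) → V = ⊥ ∨ V = ⊤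

/-- The projection onto a subspace commutes with an operator when the subspace is invariant
under the operator and its adjoint. -/
lemma starProjection_comm {E : Type*} [NormedAddCommGroup E] [InnerProductSpace ℂ E]
    (K : Submodule ℂ E) [K.HasOrthogonalProjection] (S S' : E →L[ℂ] E)
    (hS : ∀ u v, ⟪S' u, v⟫_ℂ = ⟪u, S v⟫_ℂ) (h1 : ∀ v ∈ K, S v ∈ K) (h2 : ∀ v ∈ K, S' v ∈ K)
    (v : E) : K.starProjection (S v) = S (K.starProjection v) := by
  apply Submodule.eq_starProjection_of_mem_orthogonal (h1 _ (K.starProjection_apply_mem v))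
  rw [← map_sub]
  intro u hu
  rw [← hS]
  exact K.sub_starProjection_mem_orthogonal v _ (h2 u hu)

lemma Irred.schur_sa {π : A →⋆ₐ[ℂ] (H →L[ℂ] H)} (hπ : Irred π) {T : H →L[ℂ] H}
    (hT : IsSelfAdjoint T) (hc : ∀ a, Commute T (π a)) : ∃ r : ℝ, T = algebraMap ℝ _ r := by
  have key : ∀ s ∈ spectrum ℝ T, ∀ t ∈ spectrum ℝ T, ¬ s < t := by
    intro s hs t ht hst
    set m := (s + t) / 2 with hm
    let f : ℝ → ℝ := fun x => max (x - m) 0
    let g : ℝ → ℝ := fun x => max (m - x) 0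
    have hfg : cfc f T * cfc g T = 0 := by
      rw [← cfc_mul f g T]
      have : (fun x => f x * g x) = 0 := by
        ext x
        simp only [f, g, Pi.zero_apply]
        rcases le_total x m with h | h
        · rw [max_eq_right (by linarith : x - m ≤ 0), zero_mul]
        · rw [max_eq_right (by linarith : m - x ≤ 0), mul_zero]
      rw [this, cfc_zero]
    have hf0 : cfc f T ≠ 0 := by
      intro h
      have := (eqOn_of_cfc_eq_cfc (f := f) (g := 0) (a := T) (by rw [h, cfc_zero])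
        (by fun_prop) continuousOn_const hT) ht
      simp only [f, Pi.zero_apply] at this
      have h2 := le_max_left (t - m) 0
      linarith
    have hg0 : cfc g T ≠ 0 := by
      intro h
      have := (eqOn_of_cfc_eq_cfc (f := g) (g := 0) (a := T) (by rw [h, cfc_zero])
        (by fun_prop) continuousOn_const hT) hs
      simp only [g, Pi.zero_apply] at this
      have h2 := le_max_left (m - s) 0
      linarith
    rcases hπ (cfc f T).ker (ContinuousLinearMap.isClosed_ker _) (fun a v hv => by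
      have h1 := congrArg (fun S : H →L[ℂ] H => S v) ((hc a).cfc_real f).eq
      simp only [mul_apply_eq_comp] at h1
      have hv' : cfc f T v = 0 := hv
      change cfc f T (π a v) = 0
      rw [h1, hv', map_zero]) with h | h
    · apply hg0
      ext v
      have : cfc g T v ∈ (cfc f T).ker := by
        change cfc f T (cfc g T v) = 0
        rw [← mul_apply_eq_comp, hfg]; rfl
      rw [h] at this
      simpa using this
    · apply hf0
      ext v
      have : v ∈ (cfc f T).ker := by rw [h]; trivial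
      exact this
  by_cases hne : (spectrum ℝ T).Nonempty
  · obtain ⟨s, hs⟩ := hne
    refine ⟨s, CFC.eq_algebraMap_of_spectrum_subset_singleton T s (fun t ht => ?_)⟩
    exact le_antisymm (not_lt.mp (key s hs t ht)) (not_lt.mp (key t ht s hs))
  · refine ⟨0, CFC.eq_algebraMap_of_spectrum_subset_singleton T 0 (fun t ht => ?_)⟩
    exact (hne ⟨t, ht⟩).elim

/-- Schur's lemma. -/
theorem Irred.schur {π : A →⋆ₐ[ℂ] (H →L[ℂ] H)} (hπ : Irred π) {T : H →L[ℂ] H}
    (hc : ∀ a v, T (π a v) = π a (T v)) : ∃ c : ℂ, ∀ v, T v = c • v := by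
  have h1 : ∀ a, Commute T (π a) := fun a => by ext v; exact hc a v
  have h2 : ∀ a, Commute (star T) (π a) := fun a => by
    have := (h1 (star a)).star_star
    rwa [← map_star, star_star] at this
  obtain ⟨r, hr⟩ := hπ.schur_sa (T := T + star T) (IsSelfAdjoint.add_star_self T)
    (fun a => (h1 a).add_left (h2 a))
  obtain ⟨s, hs⟩ := hπ.schur_sa (T := Complex.I • (T - star T))
    (by simp [IsSelfAdjoint, star_smul, smul_sub]; abel)
    (fun a => ((h1 a).sub_left (h2 a)).smul_left _)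
  refine ⟨(r - Complex.I * s) / 2, fun v => ?_⟩
  have e1 := congrArg (fun S : H →L[ℂ] H => S v) hr
  have e2 := congrArg (fun S : H →L[ℂ] H => S v) hs
  simp only [add_apply, Algebra.algebraMap_eq_smul_one, smul_apply, one_apply_eq_self,
    sub_apply, ← Complex.coe_smul] at e1 e2
  have e3 : T v - (star T) v = (-Complex.I * s) • v := by
    have : T v - (star T) v = (-Complex.I) • (Complex.I • (T v - (star T) v)) := by
      rw [smul_smul]; simp
    rw [this, e2, smul_smul]
  have : T v = (1 / 2 : ℂ) • ((T v + (star T) v) + (T v - (star T) v)) := by module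
  rw [this, e1, e3]
  module

/-- Two-vector form of the double commutant theorem. -/
theorem Irred.two_vec {π : A →⋆ₐ[ℂ] (H →L[ℂ] H)} (hπ : Irred π) (ξ₁ ξ₂ a b : H)
    (h : ∀ z, ⟪a, π z ξ₁⟫_ℂ + ⟪b, π z ξ₂⟫_ℂ = 0) (T : H →L[ℂ] H) :
    ⟪a, T ξ₁⟫_ℂ + ⟪b, T ξ₂⟫_ℂ = 0 := by
  let E := WithLp 2 (H × H)
  let e : E ≃L[ℂ] H × H := WithLp.prodContinuousLinearEquiv 2 ℂ H H
  let D : (H →L[ℂ] H) → (E →L[ℂ] E) := fun S =>
    (e.symm : H × H →L[ℂ] E) ∘L (S.prodMap S) ∘L (e : E →L[ℂ] H × H)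
  have hin : ∀ x y x' y' : H, ⟪e.symm (x, y), e.symm (x', y')⟫_ℂ = ⟪x, x'⟫_ℂ + ⟪y, y'⟫_ℂ :=
    fun _ _ _ _ => rfl
  have hD : ∀ S x y, D S (e.symm (x, y)) = e.symm (S x, S y) := fun S x y => by simp [D]
  have hsurj : ∀ v : E, ∃ x y, v = e.symm (x, y) := fun v => ⟨(e v).1, (e v).2, by simp⟩
  let L : A →ₗ[ℂ] E :=
    { toFun := fun z => e.symm (π z ξ₁, π z ξ₂)
      map_add' := fun x y => by rw [← map_add]; simp
      map_smul' := fun c x => by rw [RingHom.id_apply, ← map_smul]; simp }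
  let K : Submodule ℂ E := (LinearMap.range L).topologicalClosure
  have hKinv : ∀ z, ∀ v ∈ K, D (π z) v ∈ K := by
    intro z v hv
    have : Set.MapsTo (D (π z)) (LinearMap.range L : Set E) (LinearMap.range L : Set E) := by
      rintro _ ⟨w, rfl⟩
      exact ⟨z * w, by simp [L, hD]⟩
    exact this.closure (D (π z)).continuous hv
  have hcomm : ∀ z v, K.starProjection (D (π z) v) = D (π z) (K.starProjection v) := by
    intro z v
    refine starProjection_comm K (D (π z)) (D (π (star z))) ?_ (hKinv z) (hKinv _) v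
    intro u v
    obtain ⟨x, y, rfl⟩ := hsurj u
    obtain ⟨x', y', rfl⟩ := hsurj v
    rw [hD, hD, hin, hin, inner_rep_left, inner_rep_left, star_star]
  let Q : H × H →L[ℂ] H × H := (e : E →L[ℂ] H × H) ∘L K.starProjection ∘L (e.symm : H × H →L[ℂ] E)
  have hQ : ∀ z x y, Q (π z x, π z y) = (π z (Q (x, y)).1, π z (Q (x, y)).2) := by
    intro z x y
    have := hcomm z (e.symm (x, y))
    rw [hD] at this
    change e (K.starProjection (e.symm (π z x, π z y))) = _
    rw [this]
    rfl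
  obtain ⟨c11, h11⟩ := hπ.schur (T := .fst ℂ H H ∘L Q ∘L .inl ℂ H H) (fun z v => by
    have := hQ z v 0
    simp only [map_zero] at this
    simp [this])
  obtain ⟨c12, h12⟩ := hπ.schur (T := .fst ℂ H H ∘L Q ∘L .inr ℂ H H) (fun z v => by
    have := hQ z 0 v
    simp only [map_zero] at this
    simp [this])
  obtain ⟨c21, h21⟩ := hπ.schur (T := .snd ℂ H H ∘L Q ∘L .inl ℂ H H) (fun z v => by
    have := hQ z v 0
    simp only [map_zero] at this
    simp [this])
  obtain ⟨c22, h22⟩ := hπ.schur (T := .snd ℂ H H ∘L Q ∘L .inr ℂ H H) (fun z v => by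
    have := hQ z 0 v
    simp only [map_zero] at this
    simp [this])
  simp only [ContinuousLinearMap.comp_apply, ContinuousLinearMap.coe_fst',
    ContinuousLinearMap.coe_snd', ContinuousLinearMap.inl_apply,
    ContinuousLinearMap.inr_apply] at h11 h12 h21 h22
  have hQ' : ∀ x y, Q (x, y) = (c11 • x + c12 • y, c21 • x + c22 • y) := by
    intro x y
    have : (x, y) = (x, 0) + (0, y) := by simp
    rw [this, map_add]
    ext <;> simp [h11, h12, h21, h22]
  have hmem : ∀ x y, e.symm (x, y) ∈ K ↔ Q (x, y) = (x, y) := by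
    intro x y
    rw [← Submodule.starProjection_eq_self_iff]
    constructor
    · intro h
      change e (K.starProjection (e.symm (x, y))) = _
      rw [h]; simp
    · intro h
      apply e.injective
      rw [e.apply_symm_apply]
      exact h
  have h1 : e.symm (ξ₁, ξ₂) ∈ K :=
    Submodule.le_topologicalClosure _ ⟨1, by simp [L]⟩
  have h2 : e.symm (T ξ₁, T ξ₂) ∈ K := by
    rw [hmem, hQ'] at h1 ⊢
    have h3 := congrArg (fun p : H × H => (T p.1, T p.2)) h1
    simpa using h3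
  have h3 : ∀ v ∈ K, ⟪e.symm (a, b), v⟫_ℂ = 0 := by
    intro v hv
    have : (K : Set E) ⊆ {v | ⟪e.symm (a, b), v⟫_ℂ = 0} := by
      apply closure_minimal
      · rintro _ ⟨w, rfl⟩
        exact h w
      · exact isClosed_eq (by fun_prop) continuous_const
    exact this hv
  exact h3 _ h2

/-- Simultaneous approximation by `z` and `z⋆`. -/
theorem Irred.exists_approx_star {π : A →⋆ₐ[ℂ] (H →L[ℂ] H)} (hπ : Irred π) {ξ ζ : H}
    (hξ : ‖ξ‖ = 1) (hζ : ‖ζ‖ = 1) {ε : ℝ} (hε : 0 < ε) :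
    ∃ z, ‖π z ξ - ζ‖ < ε ∧ ‖π (star z) ζ - ξ‖ < ε := by
  let W : Set (H × H) := Set.range fun z => (π z ξ, π (star z) ζ)
  have hW : Convex ℝ W := by
    rintro _ ⟨z, rfl⟩ _ ⟨w, rfl⟩ s t - - -
    refine ⟨(s : ℂ) • z + (t : ℂ) • w, ?_⟩
    simp only [star_add, star_smul, map_add, map_smul, add_apply, smul_apply, Complex.star_def,
      Complex.conj_ofReal, Prod.smul_mk, Prod.mk_add_mk]
    rfl
  have hmem : (ζ, ξ) ∈ closure W := by
    by_contra hn
    obtain ⟨f, u, h1, h2⟩ := RCLike.geometric_hahn_banach_closed_point (𝕜 := ℂ) hW.closure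
      isClosed_closure hn
    let a := (InnerProductSpace.toDual ℂ H).symm (f ∘L .inl ℂ H H)
    let b := (InnerProductSpace.toDual ℂ H).symm (f ∘L .inr ℂ H H)
    have hf : ∀ x y, f (x, y) = ⟪a, x⟫_ℂ + ⟪b, y⟫_ℂ := by
      intro x y
      have : (x, y) = (x, 0) + (0, y) := by simp
      rw [this, map_add]
      simp [a, b]
    have h0 : ∀ z, (f (π z ξ, π (star z) ζ)).re = 0 := by
      intro z
      by_contra hz
      have := h1 _ (subset_closure ⟨((u / (f (π z ξ, π (star z) ζ)).re : ℝ) : ℂ) • z, rfl⟩)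
      have e : (π (((u / (f (π z ξ, π (star z) ζ)).re : ℝ) : ℂ) • z) ξ,
          π (star (((u / (f (π z ξ, π (star z) ζ)).re : ℝ) : ℂ) • z)) ζ) =
          ((u / (f (π z ξ, π (star z) ζ)).re : ℝ) : ℂ) • (π z ξ, π (star z) ζ) := by
        simp only [star_smul, map_smul, smul_apply, Complex.star_def, Complex.conj_ofReal,
          Prod.smul_mk]
      simp only at this
      rw [e, map_smul, smul_eq_mul, RCLike.re_to_complex, Complex.re_ofReal_mul,
        div_mul_cancel₀ _ hz] at this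
      exact lt_irrefl _ this
    have h3 : ∀ z, (⟪a, π z ξ⟫_ℂ + ⟪ζ, π z b⟫_ℂ).re = 0 := by
      intro z
      have := h0 z
      rw [hf, ← inner_rep_left, ← inner_conj_symm (π z b), Complex.add_re, Complex.conj_re] at this
      exact this
    have h4 : ∀ z, ⟪a, π z ξ⟫_ℂ + ⟪ζ, π z b⟫_ℂ = 0 := by
      intro z
      apply Complex.ext (h3 z)
      have := h3 (Complex.I • z)
      simp only [map_smul, smul_apply, inner_smul_right, ← mul_add] at this
      rw [Complex.I_mul_re, neg_eq_zero] at this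
      exact this
    have h5 := hπ.two_vec ξ b a ζ h4 ((innerSL ℂ ξ).smulRight ζ)
    simp only [ContinuousLinearMap.smulRight_apply, innerSL_apply_apply, inner_smul_right,
      inner_self_eq_norm_sq_to_K, hξ, hζ] at h5
    have h6 := h1 _ (subset_closure ⟨0, rfl⟩)
    simp only [map_zero, star_zero, zero_apply, Prod.mk_zero_zero] at h6
    rw [hf, ← inner_conj_symm b ξ, RCLike.re_to_complex, Complex.add_re, Complex.conj_re] at h2
    have h7 := congrArg Complex.re h5
    simp at h7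
    linarith
  obtain ⟨_, ⟨z, rfl⟩, hz⟩ := Metric.mem_closure_iff.mp hmem ε hε
  rw [Prod.dist_eq, max_lt_iff, dist_comm, dist_eq_norm, dist_comm, dist_eq_norm] at hz
  exact ⟨z, hz⟩

lemma exists_resolvent_sqrt (z : A) : ∃ a : A, IsSelfAdjoint a ∧ ‖a‖ ≤ 1 ∧ ‖z * a‖ ≤ 1 ∧
    a * a * (1 + star z * z) = 1 := by
  have hh : IsSelfAdjoint (star z * z) := IsSelfAdjoint.star_mul_self z
  set h := star z * z with hdef
  have hsp : ∀ t ∈ spectrum ℝ h, 0 ≤ t := spectrum_star_mul_self_nonneg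
  let f : ℝ → ℝ := fun t => (√(1 + t))⁻¹
  have hf : ContinuousOn f (spectrum ℝ h) := by
    apply ContinuousOn.inv₀ (by fun_prop)
    intro t ht
    have := hsp t ht
    positivity
  have hff : ∀ t, 0 ≤ t → f t * f t * (1 + t) = 1 := by
    intro t ht
    simp only [f]
    rw [← mul_inv, Real.mul_self_sqrt (by linarith), inv_mul_cancel₀ (by linarith)]
  have hsa : IsSelfAdjoint (cfc f h) := cfc_predicate f h
  refine ⟨cfc f h, hsa, ?_, ?_, ?_⟩
  · refine norm_cfc_le zero_le_one (fun t ht => ?_)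
    have := hsp t ht
    simp only [f, norm_inv, Real.norm_eq_abs, abs_of_nonneg (Real.sqrt_nonneg _)]
    apply inv_le_one_of_one_le₀
    rw [Real.one_le_sqrt]; linarith
  · have e : star (z * cfc f h) * (z * cfc f h) = cfc (fun t => f t * t * f t) h := by
      rw [cfc_mul _ _ h, cfc_mul _ _ h, cfc_id' ℝ h, star_mul, hsa.star_eq, hdef]
      simp only [mul_assoc]
    have : ‖z * cfc f h‖ * ‖z * cfc f h‖ ≤ 1 := by
      rw [← CStarRing.norm_star_mul_self, e]
      refine norm_cfc_le zero_le_one (fun t ht => ?_)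
      have h0 := hsp t ht
      have h1 := hff t h0
      have h2 : 0 ≤ f t * f t := mul_self_nonneg _
      rw [Real.norm_eq_abs, abs_le]
      constructor <;> nlinarith
    nlinarith [norm_nonneg (z * cfc f h)]
  · have : cfc f h * cfc f h * (1 + h) = cfc (fun t => f t * f t * (1 + t)) h := by
      rw [cfc_mul _ _ h, cfc_mul _ _ h, cfc_add h _ _, cfc_id' ℝ h, cfc_const_one ℝ h]
    rw [this, ← cfc_const_one ℝ h]
    exact cfc_congr (fun t ht => hff t (hsp t ht))

theorem Irred.exists_approx {π : A →⋆ₐ[ℂ] (H →L[ℂ] H)} (hπ : Irred π) {ξ : H}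
    (hξ : ‖ξ‖ = 1) (η : H) : ∃ z, ‖z‖ ≤ 2 * ‖η‖ ∧ ‖η - π z ξ‖ ≤ 1 / 2 * ‖η‖ := by
  by_cases hη : η = 0
  · exact ⟨0, by simp [hη], by simp [hη]⟩
  have hη' : 0 < ‖η‖ := norm_pos_iff.mpr hη
  set ζ := ((‖η‖⁻¹ : ℝ) : ℂ) • η with hζ
  have hζ1 : ‖ζ‖ = 1 := by simp [hζ, norm_smul, hη'.ne']
  have hηζ : η = ((‖η‖ : ℝ) : ℂ) • ζ := by
    rw [hζ, smul_smul, ← Complex.ofReal_mul, mul_inv_cancel₀ hη'.ne']; simp
  obtain ⟨z, h1, h2⟩ := hπ.exists_approx_star hξ hζ1 (ε := 1 / 6) (by norm_num)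
  obtain ⟨a, ha, ha1, ha2, ha3⟩ := exists_resolvent_sqrt z
  set w := z * a * a with hw
  have hw1 : ‖w‖ ≤ 1 := (norm_mul_le _ _).trans (by nlinarith [norm_nonneg (z * a), norm_nonneg a])
  have hw2 : ‖w * star z‖ ≤ 1 := by
    have : w * star z = (z * a) * star (z * a) := by
      rw [star_mul, ha.star_eq, hw]; simp only [mul_assoc]
    rw [this, CStarRing.norm_self_mul_star]
    nlinarith [norm_nonneg (z * a)]
  have hz : z = w + w * star z * z := by
    calc z = z * (a * a * (1 + star z * z)) := by rw [ha3, mul_one]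
      _ = _ := by rw [hw]; noncomm_ring
  have key : ζ - π ((2 : ℂ) • w) ξ = -(π z ξ - ζ) + π w (π (star z) ζ - ξ)
      + π (w * star z) (π z ξ - ζ) := by
    have := congrArg (fun x => π x ξ) hz
    simp only [map_add, map_mul, add_apply, mul_apply_eq_comp] at this
    simp only [map_smul, smul_apply, map_sub, map_mul, mul_apply_eq_comp]
    rw [two_smul]
    nth_rewrite 1 [this]
    abel
  have key2 : ‖ζ - π ((2 : ℂ) • w) ξ‖ ≤ 1 / 2 := by
    rw [key]
    refine (norm_add₃_le).trans ?_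
    have a1 := norm_rep_apply_le π w (π (star z) ζ - ξ)
    have a2 := norm_rep_apply_le π (w * star z) (π z ξ - ζ)
    rw [norm_neg]
    nlinarith [norm_nonneg (π (star z) ζ - ξ), norm_nonneg (π z ξ - ζ)]
  refine ⟨((‖η‖ : ℝ) : ℂ) • (2 : ℂ) • w, ?_, ?_⟩
  · simp only [norm_smul, Complex.norm_real, norm_norm, Complex.norm_ofNat]
    nlinarith
  · have : η - π (((‖η‖ : ℝ) : ℂ) • (2 : ℂ) • w) ξ
        = ((‖η‖ : ℝ) : ℂ) • (ζ - π ((2 : ℂ) • w) ξ) := by
      rw [smul_sub, ← hηζ, map_smul π ((‖η‖ : ℝ) : ℂ), smul_apply]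
    rw [this, norm_smul, Complex.norm_real, norm_norm]
    nlinarith

/-- Exact preimages from approximate preimages (the second half of the open mapping theorem). -/
theorem exists_preimage_of_approx {E F : Type*} [NormedAddCommGroup E] [NormedSpace ℂ E]
    [CompleteSpace E] [NormedAddCommGroup F] [NormedSpace ℂ F] (f : E →L[ℂ] F) {C : ℝ}
    (hC : ∀ y, ∃ x, ‖x‖ ≤ C * ‖y‖ ∧ ‖y - f x‖ ≤ 1 / 2 * ‖y‖) (y : F) :
    ∃ x, f x = y ∧ ‖x‖ ≤ 2 * C * ‖y‖ := by
  choose g hg using hC
  let h y := y - f (g y)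
  have hle : ∀ y, ‖h y‖ ≤ 1 / 2 * ‖y‖ := fun y => (hg y).2
  have hnle : ∀ n : ℕ, ‖h^[n] y‖ ≤ (1 / 2) ^ n * ‖y‖ := by
    intro n
    induction n with
    | zero => simp
    | succ n IH =>
      rw [Function.iterate_succ']
      apply le_trans (hle _) _
      rw [pow_succ', mul_assoc]
      gcongr
  by_cases hy : y = 0
  · exact ⟨0, by simp [hy], by simp [hy]⟩
  have hC0 : 0 ≤ C := by
    have := (norm_nonneg _).trans (hg y).1
    exact nonneg_of_mul_nonneg_left this (norm_pos_iff.mpr hy)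
  let u n := g (h^[n] y)
  have ule : ∀ n, ‖u n‖ ≤ (1 / 2) ^ n * (C * ‖y‖) := fun n ↦ by
    apply le_trans (hg _).1
    calc
      C * ‖h^[n] y‖ ≤ C * ((1 / 2) ^ n * ‖y‖) := by gcongr; exact hnle n
      _ = (1 / 2) ^ n * (C * ‖y‖) := by ring
  have sNu : Summable fun n => ‖u n‖ := by
    refine .of_nonneg_of_le (fun n => norm_nonneg _) ule ?_
    exact Summable.mul_right _ (summable_geometric_of_lt_one (by simp) (by norm_num))
  have su : Summable u := sNu.of_norm
  let x := tsum u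
  have x_ineq : ‖x‖ ≤ 2 * C * ‖y‖ :=
    calc
      ‖x‖ ≤ ∑' n, ‖u n‖ := norm_tsum_le_tsum_norm sNu
      _ ≤ ∑' n, (1 / 2) ^ n * (C * ‖y‖) :=
        sNu.tsum_le_tsum ule <| Summable.mul_right _ summable_geometric_two
      _ = (∑' n, (1 / 2) ^ n) * (C * ‖y‖) := tsum_mul_right
      _ = 2 * C * ‖y‖ := by rw [tsum_geometric_two, mul_assoc]
  have fsumeq : ∀ n : ℕ, f (∑ i ∈ Finset.range n, u i) = y - h^[n] y := by
    intro n
    induction n with
    | zero => simp
    | succ n IH => rw [Finset.sum_range_succ, f.map_add, IH, Function.iterate_succ_apply', sub_add]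
  have : Tendsto (fun n => ∑ i ∈ Finset.range n, u i) atTop (𝓝 x) := su.hasSum.tendsto_sum_nat
  have L₁ : Tendsto (fun n => f (∑ i ∈ Finset.range n, u i)) atTop (𝓝 (f x)) :=
    (f.continuous.tendsto _).comp this
  simp only [fsumeq] at L₁
  have L₂ : Tendsto (fun n => y - h^[n] y) atTop (𝓝 (y - 0)) := by
    refine tendsto_const_nhds.sub ?_
    rw [tendsto_iff_norm_sub_tendsto_zero]
    simp only [sub_zero]
    refine squeeze_zero (fun _ => norm_nonneg _) hnle ?_
    rw [← zero_mul ‖y‖]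
    refine (_root_.tendsto_pow_atTop_nhds_zero_of_lt_one ?_ ?_).mul tendsto_const_nhds <;> norm_num
  have feq : f x = y - 0 := tendsto_nhds_unique L₁ L₂
  rw [sub_zero] at feq
  exact ⟨x, feq, x_ineq⟩

/-- The orbit map `a ↦ π a ξ` as a continuous linear map. -/
noncomputable def orb (π : A →⋆ₐ[ℂ] (H →L[ℂ] H)) (ξ : H) : A →L[ℂ] H :=
  LinearMap.mkContinuous
    { toFun := fun a => π a ξ
      map_add' := fun a b => by simp
      map_smul' := fun c a => by simp } ‖ξ‖ (fun a => by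
    simpa [mul_comm] using norm_rep_apply_le π a ξ)

@[simp] lemma orb_apply (π : A →⋆ₐ[ℂ] (H →L[ℂ] H)) (ξ : H) (a : A) : orb π ξ a = π a ξ := rfl

/-- One-vector Kadison transitivity with a norm bound. -/
theorem Irred.exists_lift {π : A →⋆ₐ[ℂ] (H →L[ℂ] H)} (hπ : Irred π) {ξ : H}
    (hξ : ‖ξ‖ = 1) (η : H) : ∃ z, π z ξ = η ∧ ‖z‖ ≤ 4 * ‖η‖ := by
  obtain ⟨z, h1, h2⟩ := exists_preimage_of_approx (orb π ξ) (C := 2)
    (fun y => hπ.exists_approx hξ y) η
  exact ⟨z, h1, by linarith⟩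

end Crest.Agent.Lib.CStarPure
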