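import Crest.Agent.Lib.CStarPure.Irred

/-! Pure states. -/

set_option autoImplicit false

open scoped ComplexOrder InnerProductSpace
open Filter Topology

namespace Crest.Agent.Lib.CStarPure

variable {A : Type*} [CStarAlgebra A]

section
variable {H : Type*} [NormedAddCommGroup H] [InnerProductSpace ℂ H] [CompleteSpace H]
variable {H' : Type*} [NormedAddCommGroup H'] [InnerProductSpace ℂ H'] [CompleteSpace H']

lemma Irred.denseRange {π : A →⋆ₐ[ℂ] (H →L[ℂ] H)} (hπ : Irred π) {ξ : H} (hξ : ‖ξ‖ = 1) :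
    DenseRange (fun a => π a ξ) := by
  have : Function.Surjective (fun a => π a ξ) := fun η => by
    obtain ⟨z, hz, -⟩ := hπ.exists_lift hξ η
    exact ⟨z, hz⟩
  exact this.denseRange

/-- Intertwiner between a cyclic representation and one with a dominated vector functional. -/
theorem exists_intertwiner (π : A →⋆ₐ[ℂ] (H →L[ℂ] H)) (π' : A →⋆ₐ[ℂ] (H' →L[ℂ] H'))
    {ξ : H} {ξ' : H'} (hd : DenseRange (fun a => π a ξ)) {K : ℝ}
    (hK : ∀ a, ‖π' a ξ'‖ ≤ K * ‖π a ξ‖) :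
    ∃ V : H →L[ℂ] H', (∀ a, V (π a ξ) = π' a ξ') ∧ ∀ a v, V (π a v) = π' a (V v) := by
  let V := (orb π' ξ' : A →ₗ[ℂ] H').extendOfNorm (orb π ξ : A →ₗ[ℂ] H)
  have h1 : ∀ a, V (π a ξ) = π' a ξ' := fun a =>
    LinearMap.extendOfNorm_eq (f := (orb π' ξ' : A →ₗ[ℂ] H')) (e := (orb π ξ : A →ₗ[ℂ] H))
      hd ⟨K, hK⟩ a
  refine ⟨V, h1, fun a v => ?_⟩
  refine hd.induction_on (p := fun v => V (π a v) = π' a (V v)) v
    (isClosed_eq (by fun_prop) (by fun_prop)) (fun b => ?_)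
  simp only [← rep_mul_apply, h1]

/-- Cyclic vectors with the same vector functional give unitarily equivalent representations. -/
theorem exists_unitary (π : A →⋆ₐ[ℂ] (H →L[ℂ] H)) (π' : A →⋆ₐ[ℂ] (H' →L[ℂ] H'))
    {ξ : H} {ξ' : H'} (hd : DenseRange (fun a => π a ξ)) (hd' : DenseRange (fun a => π' a ξ'))
    (h : ∀ a, ⟪ξ, π a ξ⟫_ℂ = ⟪ξ', π' a ξ'⟫_ℂ) :
    ∃ U : H ≃ₗᵢ[ℂ] H', ∀ a v, U (π a v) = π' a (U v) := by
  have hn : ∀ a, ‖π' a ξ'‖ = ‖π a ξ‖ := fun a => by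
    rw [← nrm_eq_of_gns (f := vecFun π ξ ξ) (π := π) (fun _ => rfl),
      ← nrm_eq_of_gns (f := vecFun π ξ ξ) (π := π') h]
  let U := (LinearEquiv.refl ℂ A).extendOfIsometry (orb π ξ : A →ₗ[ℂ] H)
    (orb π' ξ' : A →ₗ[ℂ] H') hd hd' hn
  have h1 : ∀ a, U (π a ξ) = π' a ξ' := fun a =>
    LinearEquiv.extendOfIsometry_eq (LinearEquiv.refl ℂ A) (orb π ξ : A →ₗ[ℂ] H)
      (orb π' ξ' : A →ₗ[ℂ] H') hd hd' hn a
  refine ⟨U, fun a v => ?_⟩
  refine hd.induction_on (p := fun v => U (π a v) = π' a (U v)) v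
    (isClosed_eq (by fun_prop) (by fun_prop)) (fun b => ?_)
  simp only [← rep_mul_apply, h1]

end

/-- A pure state, in the form: every state dominated by a multiple of it is equal to it. -/
def IsPure (φ : A →L[ℂ] ℂ) : Prop :=
  IsState φ ∧ ∀ χ, IsState χ → ∀ K : ℝ, (∀ x, nrm χ x ≤ K * nrm φ x) → χ = φ

section
variable {H : Type*} [NormedAddCommGroup H] [InnerProductSpace ℂ H] [CompleteSpace H]

theorem Irred.isPure {π : A →⋆ₐ[ℂ] (H →L[ℂ] H)} (hπ : Irred π) {ξ : H} (hξ : ‖ξ‖ = 1) :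
    IsPure (vecFun π ξ ξ) := by
  refine ⟨isState_vecFun π hξ, fun χ hχ K hK => ?_⟩
  obtain ⟨H', _, _, _, π', ξ', -, -, h'⟩ := hχ.exists_gns
  obtain ⟨V, hV1, hV2⟩ := exists_intertwiner π π' (ξ' := ξ') (hπ.denseRange hξ) (K := K)
    (fun a => by
      have := hK a
      rwa [nrm_eq_of_gns h', nrm_eq_of_gns (f := vecFun π ξ ξ) (π := π) (fun _ => rfl)] at this)
  obtain ⟨c, hc⟩ := hπ.schur (T := V.adjoint ∘L V) (fun a v => by
    apply ext_inner_left ℂ
    intro u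
    simp only [ContinuousLinearMap.comp_apply, ContinuousLinearMap.adjoint_inner_right, hV2]
    rw [← star_star a, ← inner_rep_left, ← inner_rep_left,
      ContinuousLinearMap.adjoint_inner_right, hV2])
  have key : ∀ a, χ a = c * ⟪ξ, π a ξ⟫_ℂ := by
    intro a
    have h1 := hV1 1
    simp only [map_one, one_apply_eq_self] at h1
    rw [h', ← hV1, ← h1, ← ContinuousLinearMap.adjoint_inner_right, ← inner_smul_right, ← hc]
    rfl
  have hc1 : c = 1 := by
    have := key 1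
    simpa [hχ.map_one, hξ] using this.symm
  ext a
  simp [key, hc1]

theorem IsPure.irred {φ : A →L[ℂ] ℂ} (hφ : IsPure φ) {π : A →⋆ₐ[ℂ] (H →L[ℂ] H)} {ξ : H}
    (hd : DenseRange (fun a => π a ξ)) (h : ∀ a, φ a = ⟪ξ, π a ξ⟫_ℂ) : Irred π := by
  intro V hV hinv
  have : CompleteSpace V := hV.completeSpace_coe
  have hcomm : ∀ a v, V.starProjection (π a v) = π a (V.starProjection v) := fun a v =>
    starProjection_comm V (π a) (π (star a)) (fun u v => by rw [inner_rep_left, star_star])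
      (hinv a) (hinv _) v
  set η := V.starProjection ξ with hη
  by_cases h0 : η = 0
  · left
    rw [eq_bot_iff]
    intro v hv
    have : V.starProjection v = 0 := by
      refine hd.induction_on (p := fun v => V.starProjection v = 0) v
        (isClosed_eq (by fun_prop) (by fun_prop)) (fun b => ?_)
      rw [hcomm, ← hη, h0, map_zero]
    rwa [Submodule.starProjection_eq_self_iff.mpr hv] at this
  · right
    have hpos : 0 < ‖η‖ := norm_pos_iff.mpr h0
    set ζ := ((‖η‖⁻¹ : ℝ) : ℂ) • η with hζ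
    have hζ1 : ‖ζ‖ = 1 := by simp [hζ, norm_smul, hpos.ne']
    have := hφ.2 _ (isState_vecFun π hζ1) ‖η‖⁻¹ (fun x => by
      rw [nrm_eq_of_gns h, nrm_eq_of_gns (f := vecFun π ζ ζ) (π := π) (fun _ => rfl), hζ, map_smul,
        norm_smul, hη, ← hcomm]
      simp only [Complex.ofReal_inv, norm_inv, Complex.norm_real, norm_norm]
      gcongr
      exact V.norm_starProjection_apply_le _)
    have key : ∀ a, ⟪((‖η‖⁻¹ : ℝ) : ℂ) • ζ - ξ, π a ξ⟫_ℂ = 0 := by
      intro a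
      have h1 : ⟪ζ, π a ζ⟫_ℂ = ⟪ξ, π a ξ⟫_ℂ := by rw [← h, ← this]; rfl
      have h2 : ⟪η, π a η⟫_ℂ = ⟪η, π a ξ⟫_ℂ := by
        conv_lhs => rw [hη, ← hcomm, ← Submodule.inner_starProjection_left_eq_right,
          Submodule.starProjection_eq_self_iff.mpr (V.starProjection_apply_mem ξ)]
      rw [inner_sub_left, ← h1, hζ, map_smul]
      simp only [inner_smul_left, inner_smul_right, h2, Complex.conj_ofReal]
      ring
    have h3 : ((‖η‖⁻¹ : ℝ) : ℂ) • ζ - ξ = 0 := by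
      rw [← inner_self_eq_zero (𝕜 := ℂ)]
      exact hd.induction_on (p := fun v => ⟪((‖η‖⁻¹ : ℝ) : ℂ) • ζ - ξ, v⟫_ℂ = 0) _
        (isClosed_eq (by fun_prop) (by fun_prop)) key
    have h4 : ξ ∈ V := by
      rw [← sub_eq_zero.mp h3, hζ]
      exact V.smul_mem _ (V.smul_mem _ (V.starProjection_apply_mem ξ))
    rw [eq_top_iff]
    intro v _
    exact hd.induction_on (p := fun v => v ∈ V) v hV (fun b => hinv b ξ h4)

end

/-- Kadison-type small lift for a pure state. -/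
theorem IsPure.exists_small {φ : A →L[ℂ] ℂ} (hφ : IsPure φ) (y : A) :
    ∃ z, nrm φ (y - z) = 0 ∧ ‖z‖ ≤ 4 * nrm φ y := by
  obtain ⟨H, _, _, _, π, ξ, hd, hξ, h⟩ := hφ.1.exists_gns
  obtain ⟨z, h1, h2⟩ := (hφ.irred hd h).exists_lift hξ (π y ξ)
  refine ⟨z, ?_, ?_⟩
  · simp [nrm_eq_of_gns h, h1]
  · rwa [nrm_eq_of_gns h]

/-- A pure state is determined by its left kernel. -/
theorem IsPure.eq_of_ker {φ : A →L[ℂ] ℂ} (hφ : IsPure φ) {χ : A →L[ℂ] ℂ} (hχ : IsState χ)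
    (h : ∀ y, nrm φ y = 0 → nrm χ y = 0) : χ = φ := by
  refine hφ.2 χ hχ 4 (fun y => ?_)
  obtain ⟨z, h1, h2⟩ := hφ.exists_small y
  calc nrm χ y = nrm χ ((y - z) + z) := by simp
    _ ≤ nrm χ (y - z) + nrm χ z := hχ.nrm_add_le _ _
    _ ≤ _ := by rw [h _ h1, zero_add]; exact (hχ.nrm_le_norm z).trans h2

theorem isPure_of_eq_of_ker {φ : A →L[ℂ] ℂ} (hφ : IsState φ)
    (h : ∀ χ, IsState χ → (∀ y, nrm φ y = 0 → nrm χ y = 0) → χ = φ) : IsPure φ :=
  ⟨hφ, fun χ hχ K hK => h χ hχ (fun y hy => le_antisymm (by simpa [hy] using hK y)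
    (nrm_nonneg _ _))⟩

/-- An extreme state is pure. -/
theorem isPure_of_extreme {φ : A →L[ℂ] ℂ} (hφ : IsState φ)
    (h : ∀ χ₁ χ₂, IsState χ₁ → IsState χ₂ → ∀ s t : ℝ, 0 < s → 0 < t → s + t = 1 →
      (∀ x, (s : ℂ) * χ₁ x + t * χ₂ x = φ x) → χ₁ = φ) : IsPure φ := by
  refine ⟨hφ, fun χ hχ K hK => ?_⟩
  set L : ℝ := K ^ 2 + 1 with hL
  have hL0 : 0 < L := by positivity
  have hL1 : (L : ℂ) ≠ 0 := by exact_mod_cast hL0.ne'
  have hL2 : (L : ℂ) + 1 ≠ 0 := by exact_mod_cast (by linarith : L + 1 ≠ 0)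
  let ψ : A →L[ℂ] ℂ := (L : ℂ)⁻¹ • (((L : ℂ) + 1) • φ - χ)
  have hψ : IsState ψ := by
    refine isState_of_pos (fun x => ?_) ?_
    · have : ψ (star x * x) = ((L⁻¹ * ((L + 1) * nrm φ x ^ 2 - nrm χ x ^ 2) : ℝ) : ℂ) := by
        simp only [ψ, smul_apply, sub_apply, smul_eq_mul, ← hφ.nrm_sq', ← hχ.nrm_sq']
        push_cast; ring
      rw [this, Complex.zero_le_real]
      have h1 : nrm χ x ^ 2 ≤ (K * nrm φ x) ^ 2 := by
        have := nrm_nonneg χ x
        gcongr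
        exact hK x
      have h2 := sq_nonneg (nrm φ x)
      have : 0 ≤ (L + 1) * nrm φ x ^ 2 - nrm χ x ^ 2 := by nlinarith
      positivity
    · simp [ψ, hφ.map_one, hχ.map_one, hL1]
  refine h χ ψ hχ hψ (1 / (L + 1)) (L / (L + 1)) (by positivity) (by positivity)
    (by field_simp; ring) (fun x => ?_)
  simp only [ψ, smul_apply, sub_apply, smul_eq_mul]
  push_cast
  field_simp
  ring

/-- A downward directed family of elements each of which is at least `δ` in some state is at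
least `δ` in one pure state. -/
theorem exists_pure_ge {ι : Type*} [Nonempty ι] (a : ι → A) (δ : ℝ)
    (hdir : ∀ i j, ∃ k, ∀ χ : A →L[ℂ] ℂ, IsState χ →
      (χ (a k)).re ≤ (χ (a i)).re ∧ (χ (a k)).re ≤ (χ (a j)).re)
    (hδ : ∀ i, ∃ χ : A →L[ℂ] ℂ, IsState χ ∧ δ ≤ (χ (a i)).re) :
    ∃ χ : A →L[ℂ] ℂ, IsPure χ ∧ ∀ i, δ ≤ (χ (a i)).re := by
  let S : Set (WeakDual ℂ A) := {f | IsState (WeakDual.toStrongDual f)}
  have hS : IsCompact S := by
    have : S = (WeakDual.toStrongDual ⁻¹' Metric.closedBall 0 1) ∩ {f | f 1 = 1} := by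
      ext f
      simp only [S, Set.mem_ofPred_eq, Set.mem_inter_iff, Set.mem_preimage, mem_closedBall_zero_iff]
      exact ⟨fun h => ⟨h.1, h.2⟩, fun h => ⟨h.1, h.2⟩⟩
    rw [this]
    exact (WeakDual.isCompact_closedBall (𝕜 := ℂ) (E := A) 0 1).inter_right
      (isClosed_eq (WeakDual.eval_continuous 1) continuous_const)
  let M : ℝ → ι → Set (WeakDual ℂ A) := fun r i => S ∩ {f | r ≤ (f (a i)).re}
  have hMc : ∀ r i, IsClosed {f : WeakDual ℂ A | r ≤ (f (a i)).re} := fun r i =>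
    isClosed_le continuous_const (Complex.continuous_re.comp (WeakDual.eval_continuous _))
  have hM : ∀ r i, IsCompact (M r i) := fun r i => hS.inter_right (hMc r i)
  let N : ℝ → Set (WeakDual ℂ A) := fun r => ⋂ i, M r i
  have hN : ∀ r, IsCompact (N r) := fun r =>
    (hM r (Classical.arbitrary ι)).of_isClosed_subset
      (isClosed_iInter fun i => (hM r i).isClosed) (Set.iInter_subset _ _)
  have hNδ : (N δ).Nonempty := by
    refine IsCompact.nonempty_iInter_of_directed_nonempty_isCompact_isClosed _ ?_ ?_ (hM δ)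
      (fun i => (hM δ i).isClosed)
    · intro i j
      obtain ⟨k, hk⟩ := hdir i j
      exact ⟨k, fun f hf => ⟨hf.1, le_trans hf.2 (hk _ hf.1).1⟩,
        fun f hf => ⟨hf.1, le_trans hf.2 (hk _ hf.1).2⟩⟩
    · intro i
      obtain ⟨χ, h1, h2⟩ := hδ i
      exact ⟨StrongDual.toWeakDual χ, h1, h2⟩
  let R : Set ℝ := {r | δ ≤ r ∧ (N r).Nonempty}
  have hR : R.Nonempty := ⟨δ, le_rfl, hNδ⟩
  have hRb : BddAbove R := by
    refine ⟨‖a (Classical.arbitrary ι)‖, fun r hr => ?_⟩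
    obtain ⟨f, hf⟩ := hr.2
    have := Set.mem_iInter.mp hf (Classical.arbitrary ι)
    exact le_trans this.2 ((Complex.re_le_norm _).trans (this.1.norm_apply_le _))
  set m := sSup R with hm
  have hanti : ∀ r s, r ≤ s → N s ⊆ N r := fun r s hrs =>
    Set.iInter_mono fun i f hf => ⟨hf.1, le_trans hrs hf.2⟩
  have hNm : (N m).Nonempty := by
    have : Nonempty R := hR.to_subtype
    obtain ⟨f, hf⟩ := IsCompact.nonempty_iInter_of_directed_nonempty_isCompact_isClosed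
      (fun r : R => N r) (fun r s => by
        rcases le_total r.1 s.1 with h | h
        · exact ⟨s, hanti _ _ h, subset_rfl⟩
        · exact ⟨r, subset_rfl, hanti _ _ h⟩) (fun r => r.2.2) (fun r => hN r)
        (fun r => (hN r).isClosed)
    refine ⟨f, Set.mem_iInter.mpr fun i => ?_⟩
    have h1 : ∀ r : R, f ∈ M r i := fun r => Set.mem_iInter.mp (Set.mem_iInter.mp hf r) i
    exact ⟨(h1 ⟨δ, le_rfl, hNδ⟩).1, csSup_le hR (fun r hr => (h1 ⟨r, hr⟩).2)⟩
  have hδm : δ ≤ m := le_csSup hRb ⟨le_rfl, hNδ⟩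
  have : IsScalarTower ℝ ℂ (WeakDual ℂ A) :=
    inferInstanceAs (IsScalarTower ℝ ℂ (A →L[ℂ] ℂ))
  have : LocallyConvexSpace ℝ (WeakDual ℂ A) :=
    (WeakDual.withSeminorms ℂ A).toLocallyConvexSpace
  obtain ⟨f, hf, hext⟩ := (hN m).extremePoints_nonempty hNm
  have hf' : ∀ i, f ∈ M m i := Set.mem_iInter.mp hf
  have hfS : IsState (WeakDual.toStrongDual f) := (hf' (Classical.arbitrary ι)).1
  refine ⟨WeakDual.toStrongDual f, isPure_of_extreme hfS ?_, fun i => hδm.trans (hf' i).2⟩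
  have low : ∀ χ, IsState χ → ∀ ε > 0, ∃ i, (χ (a i)).re < m + ε := by
    intro χ hχ ε hε
    by_contra! hn
    have : m + ε ∈ R := ⟨by linarith, StrongDual.toWeakDual χ,
      Set.mem_iInter.mpr fun i => ⟨hχ, hn i⟩⟩
    have := le_csSup hRb this
    linarith
  have face : ∀ χ₁ χ₂, IsState χ₁ → IsState χ₂ → ∀ s t : ℝ, 0 < s → 0 < t → s + t = 1 →
      (∀ x, (s : ℂ) * χ₁ x + t * χ₂ x = f x) → StrongDual.toWeakDual χ₁ ∈ N m := by
    intro χ₁ χ₂ h1 h2 s t hs ht hst he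
    refine Set.mem_iInter.mpr fun i => ⟨h1, ?_⟩
    change m ≤ (χ₁ (a i)).re
    by_contra! hlt
    obtain ⟨j, hj⟩ := low χ₂ h2 (s * (m - (χ₁ (a i)).re)) (mul_pos hs (by linarith))
    obtain ⟨k, hk⟩ := hdir i j
    have e1 := (hk _ h1).1
    have e2 := (hk _ h2).2
    have e3 : m ≤ (f (a k)).re := (hf' k).2
    rw [← he] at e3
    simp only [Complex.add_re, Complex.re_ofReal_mul] at e3
    have : t < 1 := by linarith
    have e4 : m = s * m + t * m := by rw [← add_mul, hst, one_mul]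
    nlinarith [mul_pos hs (sub_pos.mpr hlt)]
  intro χ₁ χ₂ h1 h2 s t hs ht hst he
  have m1 := face χ₁ χ₂ h1 h2 s t hs ht hst he
  have m2 := face χ₂ χ₁ h2 h1 t s ht hs (by linarith) (fun x => by rw [add_comm]; exact he x)
  have := hext m1 m2 ⟨s, t, hs, ht, hst, by
    apply DFunLike.ext
    intro x
    exact he x⟩
  exact congrArg WeakDual.toStrongDual this

end Crest.Agent.Lib.CStarPure
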