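import Mathlib

/-! States on unital C⋆-algebras (order-free statements), GNS triples. -/

set_option autoImplicit false

open scoped ComplexOrder InnerProductSpace
open Filter Topology

namespace Crest.Agent.Lib.CStarPure

universe u

variable {A : Type*} [CStarAlgebra A]

lemma norm_one_le_one : ‖(1 : A)‖ ≤ 1 := by
  rcases subsingleton_or_nontrivial A with h | h
  · simp [Subsingleton.elim (1 : A) 0]
  · simp

lemma norm_eq_one_of_inner {H : Type*} [NormedAddCommGroup H] [InnerProductSpace ℂ H] {ξ : H}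
    (h : ⟪ξ, ξ⟫_ℂ = 1) : ‖ξ‖ = 1 := by
  rw [inner_self_eq_norm_sq_to_K] at h
  have h3 : ‖ξ‖ ^ 2 = 1 := by
    have := congrArg (fun z : ℂ => ‖z‖) h
    simpa using this
  have := norm_nonneg ξ
  nlinarith

/-- A state: a functional of norm at most one taking the value one at the unit. -/
structure IsState (f : A →L[ℂ] ℂ) : Prop where
  norm_le : ‖f‖ ≤ 1
  map_one : f 1 = 1

/-- The vector functional `a ↦ ⟪ζ, π a ξ⟫`. -/
noncomputable def vecFun {H : Type*} [NormedAddCommGroup H] [InnerProductSpace ℂ H]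
    [CompleteSpace H] (π : A →⋆ₐ[ℂ] (H →L[ℂ] H)) (ζ ξ : H) : A →L[ℂ] ℂ :=
  LinearMap.mkContinuous
    { toFun := fun a => ⟪ζ, π a ξ⟫_ℂ
      map_add' := fun a b => by simp
      map_smul' := fun c a => by simp } (‖ζ‖ * ‖ξ‖) (fun a => by
    simp only [LinearMap.coe_mk, AddHom.coe_mk]
    calc ‖⟪ζ, π a ξ⟫_ℂ‖ ≤ ‖ζ‖ * ‖π a ξ‖ := norm_inner_le_norm _ _
      _ ≤ ‖ζ‖ * (‖a‖ * ‖ξ‖) := by
        gcongr
        exact ((π a).le_opNorm ξ).trans (by gcongr; exact NonUnitalStarAlgHom.norm_apply_le π a)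
      _ = _ := by ring)

section
variable {H : Type*} [NormedAddCommGroup H] [InnerProductSpace ℂ H] [CompleteSpace H]

@[simp] lemma vecFun_apply (π : A →⋆ₐ[ℂ] (H →L[ℂ] H)) (ζ ξ : H) (a : A) :
    vecFun π ζ ξ a = ⟪ζ, π a ξ⟫_ℂ := rfl

lemma norm_rep_apply_le (π : A →⋆ₐ[ℂ] (H →L[ℂ] H)) (a : A) (ξ : H) : ‖π a ξ‖ ≤ ‖a‖ * ‖ξ‖ :=
  ((π a).le_opNorm ξ).trans (by gcongr; exact NonUnitalStarAlgHom.norm_apply_le π a)

lemma rep_mul_apply (π : A →⋆ₐ[ℂ] (H →L[ℂ] H)) (a b : A) (ξ : H) :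
    π (a * b) ξ = π a (π b ξ) := by simp

lemma inner_rep_left (π : A →⋆ₐ[ℂ] (H →L[ℂ] H)) (a : A) (ζ ξ : H) :
    ⟪π a ζ, ξ⟫_ℂ = ⟪ζ, π (star a) ξ⟫_ℂ := by
  rw [map_star, ContinuousLinearMap.star_eq_adjoint, ContinuousLinearMap.adjoint_inner_right]

lemma inner_rep_rep (π : A →⋆ₐ[ℂ] (H →L[ℂ] H)) (a b : A) (ζ ξ : H) :
    ⟪π a ζ, π b ξ⟫_ℂ = ⟪ζ, π (star a * b) ξ⟫_ℂ := by
  rw [inner_rep_left, rep_mul_apply]

lemma isState_vecFun (π : A →⋆ₐ[ℂ] (H →L[ℂ] H)) {ξ : H} (hξ : ‖ξ‖ = 1) :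
    IsState (vecFun π ξ ξ) where
  norm_le := by
    refine (LinearMap.mkContinuous_norm_le _ (by positivity) _).trans ?_
    simp [hξ]
  map_one := by simp [hξ]

end

/-- GNS triple of a positive functional. -/
theorem exists_gns {A : Type u} [CStarAlgebra A] (f : A →ₗ[ℂ] ℂ)
    (hf : ∀ x, 0 ≤ f (star x * x)) :
    ∃ (H : Type u) (_ : NormedAddCommGroup H) (_ : InnerProductSpace ℂ H) (_ : CompleteSpace H)
      (π : A →⋆ₐ[ℂ] (H →L[ℂ] H)) (ξ : H),
      DenseRange (fun a => π a ξ) ∧ ∀ a, f a = ⟪ξ, π a ξ⟫_ℂ := by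
  let _ := CStarAlgebra.spectralOrder A
  have _ := CStarAlgebra.spectralOrderedRing A
  let g : A →ₚ[ℂ] ℂ := PositiveLinearMap.mk₀ f (fun x hx => by
    obtain ⟨b, rfl⟩ := CStarAlgebra.nonneg_iff_eq_star_mul_self.mp hx
    exact hf b)
  have hg : ∀ a, g a = f a := fun a => rfl
  have key : ∀ a b : A, g.gnsStarAlgHom a ((g.toPreGNS b : g.PreGNS) : g.GNS)
      = ((g.toPreGNS (a * b) : g.PreGNS) : g.GNS) := by
    intro a b
    have := g.gnsNonUnitalStarAlgHom_apply_coe (a := a) (b := g.toPreGNS b)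
    refine Eq.trans this ?_
    congr 1
  refine ⟨g.GNS, inferInstance, inferInstance, inferInstance, g.gnsStarAlgHom,
    ((g.toPreGNS 1 : g.PreGNS) : g.GNS), ?_, ?_⟩
  · have : (fun a => g.gnsStarAlgHom a ((g.toPreGNS 1 : g.PreGNS) : g.GNS))
        = (fun x : g.PreGNS => (x : g.GNS)) ∘ g.toPreGNS := by
      ext a; simp only [key, Function.comp, mul_one]
    rw [this]
    have h1 : Set.range ((fun x : g.PreGNS => (x : g.GNS)) ∘ g.toPreGNS)
        = Set.range (fun x : g.PreGNS => (x : g.GNS)) :=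
      g.toPreGNS.surjective.range_comp _
    unfold DenseRange
    rw [h1]
    exact UniformSpace.Completion.denseRange_coe
  · intro a
    rw [key, UniformSpace.Completion.inner_coe, g.preGNS_inner_def]
    simp [hg]

namespace IsState

variable {f : A →L[ℂ] ℂ}

lemma norm_apply_le (hf : IsState f) (x : A) : ‖f x‖ ≤ ‖x‖ :=
  (f.le_opNorm x).trans (by nlinarith [hf.norm_le, norm_nonneg x])

lemma map_algebraMap (hf : IsState f) (c : ℂ) : f (algebraMap ℂ A c) = c := by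
  simp [Algebra.algebraMap_eq_smul_one, hf.map_one]

lemma im_eq_zero (hf : IsState f) {x : A} (hx : IsSelfAdjoint x) : (f x).im = 0 := by
  have key : ∀ t : ℝ, 2 * (f x).im * t ≤ ‖x‖ ^ 2 := by
    intro t
    have h1 := hf.norm_apply_le (x + ((t : ℂ) * Complex.I) • 1)
    have h2 : ‖x + ((t : ℂ) * Complex.I) • (1 : A)‖ ^ 2 ≤ ‖x‖ ^ 2 + t ^ 2 := by
      rw [sq, ← CStarRing.norm_star_mul_self]
      have : star (x + ((t : ℂ) * Complex.I) • (1 : A)) * (x + ((t : ℂ) * Complex.I) • (1 : A))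
          = x * x + ((t : ℂ) ^ 2) • (1 : A) := by
        simp only [star_add, star_smul, star_one, hx.star_eq, add_mul, mul_add, smul_mul_assoc,
          mul_smul_comm, one_mul, mul_one, star_mul', Complex.star_def,
          Complex.conj_ofReal, Complex.conj_I]
        have : (t : ℂ) * Complex.I * (t * -Complex.I) = (t : ℂ) ^ 2 := by
          linear_combination (-(t : ℂ) ^ 2) * Complex.I_mul_I
        rw [smul_add, smul_smul, this]
        module
      rw [this]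
      refine (norm_add_le _ _).trans (add_le_add ?_ ?_)
      · rw [sq]; exact norm_mul_le _ _
      · rw [norm_smul]
        have := norm_one_le_one (A := A)
        simp only [norm_pow, Complex.norm_real, Real.norm_eq_abs, sq_abs]
        nlinarith [sq_nonneg t]
    have h3 : ((f x).im + t) ^ 2 ≤ ‖f (x + ((t : ℂ) * Complex.I) • 1)‖ ^ 2 := by
      have := Complex.abs_im_le_norm (f (x + ((t : ℂ) * Complex.I) • 1))
      have h4 : (f (x + ((t : ℂ) * Complex.I) • 1)).im = (f x).im + t := by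
        simp [hf.map_one]
      rw [h4] at this
      rw [← sq_abs]
      gcongr
    have h5 : ‖f (x + ((t : ℂ) * Complex.I) • 1)‖ ^ 2 ≤
        ‖x + ((t : ℂ) * Complex.I) • (1 : A)‖ ^ 2 := by gcongr
    nlinarith [sq_nonneg (f x).im]
  by_contra h
  have := key ((‖x‖ ^ 2 + 1) / (2 * (f x).im))
  rw [mul_div_cancel₀ _ (by simpa using h)] at this
  linarith

lemma nonneg [PartialOrder A] [StarOrderedRing A] (hf : IsState f) {x : A} (hx : 0 ≤ x) :
    0 ≤ f x := by
  have h1 := hf.im_eq_zero (IsSelfAdjoint.of_nonneg hx)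
  have h2 : ‖algebraMap ℝ A ‖x‖ - x‖ ≤ ‖x‖ := by
    have h3 : ‖algebraMap ℝ A ‖x‖ - x‖ ≤ ‖algebraMap ℝ A ‖x‖‖ :=
      CStarAlgebra.norm_le_norm_of_nonneg_of_le
        (sub_nonneg.mpr (IsSelfAdjoint.le_algebraMap_norm_self (IsSelfAdjoint.of_nonneg hx)))
        (by simpa using hx)
    refine h3.trans ?_
    rw [Algebra.algebraMap_eq_smul_one, norm_smul]
    have := norm_one_le_one (A := A)
    simp only [norm_norm]
    nlinarith [norm_nonneg x]
  have h4 := (hf.norm_apply_le _).trans h2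
  have h5 : f (algebraMap ℝ A ‖x‖ - x) = (‖x‖ : ℂ) - f x := by
    rw [map_sub, Algebra.algebraMap_eq_smul_one, ← Complex.coe_smul, map_smul, hf.map_one]
    simp
  rw [h5] at h4
  have h6 := (Complex.re_le_norm _).trans h4
  simp only [Complex.sub_re, Complex.ofReal_re] at h6
  exact Complex.le_def.mpr ⟨by simp; linarith, by simp [h1]⟩

lemma mono [PartialOrder A] [StarOrderedRing A] (hf : IsState f) {x y : A} (h : x ≤ y) :
    f x ≤ f y := by
  have := hf.nonneg (sub_nonneg.mpr h)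
  rwa [map_sub, sub_nonneg] at this

lemma re_mono [PartialOrder A] [StarOrderedRing A] (hf : IsState f) {x y : A} (h : x ≤ y) :
    (f x).re ≤ (f y).re := (Complex.le_def.mp (hf.mono h)).1

lemma re_nonneg [PartialOrder A] [StarOrderedRing A] (hf : IsState f) {x : A} (h : 0 ≤ x) :
    0 ≤ (f x).re := (Complex.le_def.mp (hf.nonneg h)).1

lemma star_mul_self_nonneg (hf : IsState f) (x : A) : 0 ≤ f (star x * x) := by
  let _ := CStarAlgebra.spectralOrder A
  have _ := CStarAlgebra.spectralOrderedRing A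
  exact hf.nonneg (_root_.star_mul_self_nonneg x)

end IsState

theorem IsState.exists_gns {A : Type u} [CStarAlgebra A] {f : A →L[ℂ] ℂ} (hf : IsState f) :
    ∃ (H : Type u) (_ : NormedAddCommGroup H) (_ : InnerProductSpace ℂ H) (_ : CompleteSpace H)
      (π : A →⋆ₐ[ℂ] (H →L[ℂ] H)) (ξ : H),
      DenseRange (fun a => π a ξ) ∧ ‖ξ‖ = 1 ∧ ∀ a, f a = ⟪ξ, π a ξ⟫_ℂ := by
  obtain ⟨H, _, _, _, π, ξ, h1, h2⟩ := CStarPure.exists_gns (f : A →ₗ[ℂ] ℂ) hf.star_mul_self_nonneg
  refine ⟨H, inferInstance, inferInstance, inferInstance, π, ξ, h1, ?_, h2⟩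
  have := h2 1
  simp only [ContinuousLinearMap.coe_coe, hf.map_one, _root_.map_one, one_apply_eq_self] at this
  exact norm_eq_one_of_inner this.symm

/-- A positive unital functional is a state. -/
theorem isState_of_pos {f : A →L[ℂ] ℂ} (hf : ∀ x, 0 ≤ f (star x * x)) (h1 : f 1 = 1) :
    IsState f := by
  obtain ⟨H, _, _, _, π, ξ, -, h2⟩ := CStarPure.exists_gns (f : A →ₗ[ℂ] ℂ) hf
  have := h2 1
  simp only [ContinuousLinearMap.coe_coe, h1, _root_.map_one, one_apply_eq_self] at this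
  have h4 : ‖ξ‖ = 1 := norm_eq_one_of_inner this.symm
  have : f = vecFun π ξ ξ := by ext a; exact h2 a
  rw [this]
  exact isState_vecFun π h4

/-- The seminorm `√(f (x⋆ x))`. -/
noncomputable def nrm (f : A →L[ℂ] ℂ) (x : A) : ℝ := √(f (star x * x)).re

lemma nrm_nonneg (f : A →L[ℂ] ℂ) (x : A) : 0 ≤ nrm f x := Real.sqrt_nonneg _

lemma nrm_eq_of_gns {H : Type*} [NormedAddCommGroup H] [InnerProductSpace ℂ H] [CompleteSpace H]
    {f : A →L[ℂ] ℂ} {π : A →⋆ₐ[ℂ] (H →L[ℂ] H)} {ξ : H} (h : ∀ a, f a = ⟪ξ, π a ξ⟫_ℂ) (x : A) :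
    nrm f x = ‖π x ξ‖ := by
  rw [nrm, h, ← inner_rep_rep, inner_self_eq_norm_sq_to_K]
  have : ((‖π x ξ‖ : ℂ) ^ 2).re = ‖π x ξ‖ ^ 2 := by
    rw [← Complex.ofReal_pow, Complex.ofReal_re]
  erw [this]
  exact Real.sqrt_sq (norm_nonneg _)

namespace IsState
variable {f : A →L[ℂ] ℂ}

lemma map_star (hf : IsState f) (x : A) : f (star x) = star (f x) := by
  obtain ⟨H, _, _, _, π, ξ, -, -, h⟩ := hf.exists_gns
  rw [h, h, ← inner_rep_left]
  simp

lemma nrm_sq (hf : IsState f) (x : A) : nrm f x ^ 2 = (f (star x * x)).re :=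
  Real.sq_sqrt (Complex.le_def.mp (hf.star_mul_self_nonneg x)).1

lemma nrm_sq' (hf : IsState f) (x : A) : ((nrm f x ^ 2 : ℝ) : ℂ) = f (star x * x) := by
  rw [hf.nrm_sq]
  have := (Complex.le_def.mp (hf.star_mul_self_nonneg x)).2
  apply Complex.ext <;> simp_all

lemma nrm_eq_zero_iff (hf : IsState f) (x : A) : nrm f x = 0 ↔ f (star x * x) = 0 := by
  rw [← hf.nrm_sq']
  simp

/-- Cauchy-Schwarz. -/
lemma norm_star_mul_le (hf : IsState f) (x y : A) : ‖f (star x * y)‖ ≤ nrm f x * nrm f y := by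
  obtain ⟨H, _, _, _, π, ξ, -, -, h⟩ := hf.exists_gns
  rw [nrm_eq_of_gns h, nrm_eq_of_gns h, h, ← inner_rep_rep]
  exact norm_inner_le_norm _ _

lemma nrm_one (hf : IsState f) : nrm f 1 = 1 := by simp [nrm, hf.map_one]

lemma norm_le_nrm (hf : IsState f) (y : A) : ‖f y‖ ≤ nrm f y := by
  simpa [hf.nrm_one] using hf.norm_star_mul_le 1 y

lemma norm_le_nrm_star (hf : IsState f) (y : A) : ‖f y‖ ≤ nrm f (star y) := by
  simpa [hf.nrm_one] using hf.norm_star_mul_le (star y) 1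

lemma nrm_mul_le (hf : IsState f) (x y : A) : nrm f (x * y) ≤ ‖x‖ * nrm f y := by
  obtain ⟨H, _, _, _, π, ξ, -, -, h⟩ := hf.exists_gns
  rw [nrm_eq_of_gns h, nrm_eq_of_gns h, rep_mul_apply]
  exact norm_rep_apply_le _ _ _

lemma nrm_le_norm (hf : IsState f) (x : A) : nrm f x ≤ ‖x‖ := by
  simpa [hf.nrm_one] using hf.nrm_mul_le x 1

lemma nrm_add_le (hf : IsState f) (x y : A) : nrm f (x + y) ≤ nrm f x + nrm f y := by
  obtain ⟨H, _, _, _, π, ξ, -, -, h⟩ := hf.exists_gns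
  simp only [nrm_eq_of_gns h, map_add, add_apply]
  exact norm_add_le _ _

lemma nrm_smul (hf : IsState f) (c : ℂ) (x : A) : nrm f (c • x) = ‖c‖ * nrm f x := by
  obtain ⟨H, _, _, _, π, ξ, -, -, h⟩ := hf.exists_gns
  simp only [nrm_eq_of_gns h, map_smul, smul_apply, norm_smul]

lemma nrm_neg (_hf : IsState f) (x : A) : nrm f (-x) = nrm f x := by
  simp [nrm]

lemma nrm_sub_le (hf : IsState f) (x y : A) : nrm f (x - y) ≤ nrm f x + nrm f y := by
  rw [sub_eq_add_neg, ← hf.nrm_neg y]; exact hf.nrm_add_le _ _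

lemma nrm_sub_rev (hf : IsState f) (x y : A) : nrm f (x - y) = nrm f (y - x) := by
  rw [← hf.nrm_neg, neg_sub]

end IsState

lemma continuous_nrm (f : A →L[ℂ] ℂ) : Continuous (nrm f) := by
  unfold nrm; fun_prop

/-- Weak-* compactness of the state space, in ultrafilter form. -/
theorem exists_state_tendsto {ι : Type*} (U : Ultrafilter ι) (f : ι → A →L[ℂ] ℂ)
    (hf : ∀ᶠ i in (U : Filter ι), IsState (f i)) :
    ∃ g : A →L[ℂ] ℂ, IsState g ∧ ∀ x, Tendsto (fun i => f i x) U (𝓝 (g x)) := by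
  have hK := WeakDual.isCompact_closedBall (𝕜 := ℂ) (E := A) 0 1
  have hle : (U.map (fun i => StrongDual.toWeakDual (f i)) : Filter (WeakDual ℂ A)) ≤
      𝓟 (WeakDual.toStrongDual ⁻¹' Metric.closedBall 0 1) := by
    rw [Ultrafilter.coe_map, Filter.le_principal_iff, Filter.mem_map]
    filter_upwards [hf] with i hi
    simpa using hi.norm_le
  obtain ⟨g, hg, hlim⟩ := hK.ultrafilter_le_nhds _ hle
  have hx : ∀ x, Tendsto (fun i => f i x) U (𝓝 (WeakDual.toStrongDual g x)) := by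
    intro x
    exact ((WeakDual.eval_continuous x).tendsto g).comp hlim
  refine ⟨WeakDual.toStrongDual g, ⟨by simpa using hg, ?_⟩, hx⟩
  refine tendsto_nhds_unique (hx 1) ?_
  refine tendsto_const_nhds.congr' ?_
  filter_upwards [hf] with i hi
  exact hi.map_one.symm

/-- A state attaining the norm of a positive element. -/
theorem exists_state_norm [Nontrivial A] [PartialOrder A] [StarOrderedRing A] {h : A}
    (hh : 0 ≤ h) : ∃ f : A →L[ℂ] ℂ, IsState f ∧ f h = ‖h‖ := by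
  have h1 : ‖h + algebraMap ℝ A 1‖ = ‖h‖ + 1 := by
    apply le_antisymm
    · refine (norm_add_le _ _).trans (by simp)
    · have h2 := CStarAlgebra.norm_mem_spectrum_of_nonneg hh
      have h3 : ‖h‖ + 1 ∈ spectrum ℝ (h + algebraMap ℝ A 1) := by
        rw [← spectrum.add_singleton_eq]
        exact Set.add_mem_add h2 rfl
      have := spectrum.norm_le_norm_of_mem h3
      rwa [Real.norm_of_nonneg (by positivity)] at this
  obtain ⟨g, hg1, hg2⟩ := exists_dual_vector'' ℂ (h + algebraMap ℝ A 1)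
  rw [h1, _root_.map_one, map_add] at hg2
  have a1 : ‖g h‖ ≤ ‖h‖ := (g.le_opNorm h).trans (by nlinarith [norm_nonneg h])
  have a2 : ‖g 1‖ ≤ 1 := (g.le_opNorm 1).trans (by simpa using hg1)
  have b1 := (Complex.re_le_norm _).trans a1
  have b2 := (Complex.re_le_norm _).trans a2
  have c := congrArg Complex.re hg2
  simp only [Complex.add_re, RCLike.ofReal_add, RCLike.ofReal_one, Complex.coe_algebraMap,
    Complex.ofReal_re, Complex.one_re] at c
  have d2 : (g 1).re = 1 := by linarith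
  have d3 : (g 1).im = 0 := by
    have := Complex.sq_norm_sub_sq_re (g 1)
    have h5 : ‖g 1‖ ^ 2 ≤ 1 := by nlinarith [norm_nonneg (g 1)]
    rw [d2] at this
    nlinarith [sq_nonneg (g 1).im]
  have e : g 1 = 1 := Complex.ext d2 d3
  refine ⟨g, ⟨hg1, e⟩, ?_⟩
  rw [e] at hg2
  have : g h + 1 = (‖h‖ : ℂ) + 1 := by rw [hg2]; simp
  exact add_right_cancel this

/-- Hahn-Banach extension of a state from a closed ⋆-subalgebra. -/
theorem exists_state_extend (B : StarSubalgebra ℂ A) [IsClosed (B : Set A)]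
    {g : B →L[ℂ] ℂ} (hg : IsState g) :
    ∃ f : A →L[ℂ] ℂ, IsState f ∧ ∀ x : B, f x = g x := by
  obtain ⟨f, hf1, hf2⟩ := exists_extension_norm_eq (𝕜 := ℂ) (E := A) B.toSubalgebra.toSubmodule g
  refine ⟨f, ⟨hf2.le.trans hg.norm_le, ?_⟩, fun x => hf1 x⟩
  exact (hf1 (1 : B)).trans hg.map_one

/-- Restriction of a functional to a closed ⋆-subalgebra. -/
noncomputable def restr (B : StarSubalgebra ℂ A) (f : A →L[ℂ] ℂ) : B →L[ℂ] ℂ :=
  f.comp (B.toSubalgebra.toSubmodule.subtypeL)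

@[simp] lemma restr_apply (B : StarSubalgebra ℂ A) (f : A →L[ℂ] ℂ) (x : B) :
    restr B f x = f x := rfl

lemma IsState.restr (B : StarSubalgebra ℂ A) [IsClosed (B : Set A)] {f : A →L[ℂ] ℂ}
    (hf : IsState f) : IsState (restr B f) where
  norm_le := ContinuousLinearMap.opNorm_le_bound _ zero_le_one (fun x => by
    simpa using hf.norm_apply_le x)
  map_one := hf.map_one

end Crest.Agent.Lib.CStarPure
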